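import Mathlib

/-! Low-degree partitions of Boolean cubes with conditional means of the coordinate sum. -/

set_option autoImplicit false

namespace Crest.Agent.R63

open Finset
open scoped BigOperators

noncomputable section

/-- sign of a bit -/
def sg (b : Bool) : ℝ := if b then 1 else -1

/-- Walsh character -/
def chi {ι : Type} (T : Finset ι) (x : ι → Bool) : ℝ := ∏ i ∈ T, sg (x i)

/-- coordinate sum -/
def SS {ι : Type} [Fintype ι] (x : ι → Bool) : ℝ := ∑ i, sg (x i)

/-- all Walsh coefficients on more than `d` coordinates vanish -/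
def Deg {ι : Type} [Fintype ι] [DecidableEq ι] (d : ℕ) (f : (ι → Bool) → ℝ) : Prop :=
  ∀ T : Finset ι, d < T.card → 𝔼 x : ι → Bool, f x * chi T x = 0

open Classical in
/-- indicator of a proposition -/
def ind (p : Prop) : ℝ := if p then 1 else 0

lemma ind_nonneg (p : Prop) : 0 ≤ ind p := by unfold ind; split_ifs <;> norm_num
lemma ind_le_one (p : Prop) : ind p ≤ 1 := by unfold ind; split_ifs <;> norm_num
lemma ind_true {p : Prop} (h : p) : ind p = 1 := by simp [ind, h]
lemma ind_false {p : Prop} (h : ¬ p) : ind p = 0 := by simp [ind, h]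
lemma ind_and (p q : Prop) : ind (p ∧ q) = ind p * ind q := by
  unfold ind; by_cases hp : p <;> by_cases hq : q <;> simp [hp, hq]
lemma ind_forall {J : Type} [Fintype J] (p : J → Prop) : ind (∀ j, p j) = ∏ j, ind (p j) := by
  by_cases h : ∀ j, p j
  · rw [ind_true h]; symm; exact Finset.prod_eq_one fun j _ => ind_true (h j)
  · rw [ind_false h]; push Not at h; obtain ⟨j, hj⟩ := h
    symm; exact Finset.prod_eq_zero (Finset.mem_univ j) (ind_false hj)
lemma ind_congr {p q : Prop} (h : p ↔ q) : ind p = ind q := by rw [propext h]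

lemma expect_pi_prod {K : Type} [Field K] [CharZero K] {J Ω : Type} [Fintype J] [DecidableEq J] [Fintype Ω]
    (f : J → Ω → K) : 𝔼 x : J → Ω, ∏ j, f j (x j) = ∏ j, 𝔼 ω, f j ω := by
  simp only [Fintype.expect_eq_sum_div_card]
  rw [Finset.prod_div_distrib, Finset.prod_univ_sum, Fintype.piFinset_univ]
  simp

section deg
variable {ι : Type} [Fintype ι] [DecidableEq ι]

lemma Deg.mono {d e : ℕ} {f : (ι → Bool) → ℝ} (h : Deg d f) (hde : d ≤ e) : Deg e f :=
  fun T hT => h T (lt_of_le_of_lt hde hT)

lemma Deg.add {d : ℕ} {f g : (ι → Bool) → ℝ} (hf : Deg d f) (hg : Deg d g) :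
    Deg d (fun x => f x + g x) := fun T hT => by
  simp only [add_mul, Finset.expect_add_distrib, hf T hT, hg T hT, add_zero]

lemma Deg.sub {d : ℕ} {f g : (ι → Bool) → ℝ} (hf : Deg d f) (hg : Deg d g) :
    Deg d (fun x => f x - g x) := fun T hT => by
  simp only [sub_mul, Finset.expect_sub_distrib, hf T hT, hg T hT, sub_zero]

lemma Deg.cmul {d : ℕ} {f : (ι → Bool) → ℝ} (c : ℝ) (hf : Deg d f) :
    Deg d (fun x => c * f x) := fun T hT => by
  simp only [mul_assoc, ← Finset.mul_expect, hf T hT, mul_zero]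

lemma Deg.zero {d : ℕ} : Deg d (fun _ : ι → Bool => (0 : ℝ)) := fun T _ => by simp

lemma Deg.sum {α : Type} {d : ℕ} (s : Finset α) {f : α → (ι → Bool) → ℝ}
    (hf : ∀ a ∈ s, Deg d (f a)) : Deg d (fun x => ∑ a ∈ s, f a x) := fun T hT => by
  simp only [Finset.sum_mul, Finset.expect_sum_comm]
  exact Finset.sum_eq_zero fun a ha => hf a ha T hT

lemma expect_sg : 𝔼 b : Bool, sg b = 0 := by
  rw [Fintype.expect_eq_sum_div_card]; simp [sg]

lemma chi_eq_prod (T : Finset ι) (x : ι → Bool) :
    chi T x = ∏ i, (if i ∈ T then sg (x i) else 1) := by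
  unfold chi; rw [Finset.prod_ite_mem, Finset.univ_inter]

lemma expect_chi {T : Finset ι} (hT : T.Nonempty) : 𝔼 x : ι → Bool, chi T x = 0 := by
  simp only [chi_eq_prod]
  rw [expect_pi_prod (fun i b => if i ∈ T then sg b else 1)]
  obtain ⟨i, hi⟩ := hT
  exact Finset.prod_eq_zero (Finset.mem_univ i) (by simp only [hi, if_true]; exact expect_sg)

lemma Deg.const {d : ℕ} (c : ℝ) : Deg d (fun _ : ι → Bool => c) := fun T hT => by
  rw [← Finset.mul_expect, expect_chi (Finset.card_pos.1 (by omega)), mul_zero]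

lemma expect_SS : 𝔼 x : ι → Bool, SS x = 0 := by
  unfold SS
  rw [Finset.expect_sum_comm]
  refine Finset.sum_eq_zero fun i _ => ?_
  have := expect_chi (T := ({i} : Finset ι)) (by simp)
  simpa [chi] using this

end deg

/-! ### product of finitely many copies -/
section pi
variable {J ι : Type} [Fintype J] [Fintype ι] [DecidableEq J] [DecidableEq ι]

/-- the `j`-th block of a point of the product cube -/
def blk (x : J × ι → Bool) (j : J) : ι → Bool := fun i => x (j, i)

lemma expect_blk {K : Type} [Field K] [CharZero K] (F : (J → ι → Bool) → K) :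
    𝔼 x : J × ι → Bool, F (blk x) = 𝔼 y : J → ι → Bool, F y :=
  Fintype.expect_equiv (Equiv.curry J ι Bool) _ _ fun _ => rfl

lemma expect_blk_prod {K : Type} [Field K] [CharZero K] (f : J → (ι → Bool) → K) :
    𝔼 x : J × ι → Bool, ∏ j, f j (blk x j) = ∏ j, 𝔼 y, f j y := by
  rw [expect_blk (fun y => ∏ j, f j (y j)), expect_pi_prod]

lemma SS_blk (x : J × ι → Bool) : SS x = ∑ j, SS (blk x j) := by
  unfold SS blk; rw [Fintype.sum_prod_type]

lemma Deg.pi {d : J → ℕ} {f : J → (ι → Bool) → ℝ} (hf : ∀ j, Deg (d j) (f j)) :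
    Deg (∑ j, d j) (fun x : J × ι → Bool => ∏ j, f j (blk x j)) := fun T hT => by
  set Tj : J → Finset ι := fun j => Finset.univ.filter fun i => (j, i) ∈ T with hTj
  have hchi : ∀ x : J × ι → Bool, chi T x = ∏ j, chi (Tj j) (blk x j) := fun x => by
    simp only [chi_eq_prod, Fintype.prod_prod_type, hTj, Finset.mem_filter, Finset.mem_univ,
      true_and, blk]
  have hcard : T.card = ∑ j, (Tj j).card := by
    simp only [hTj, Finset.card_filter]
    rw [← Fintype.sum_prod_type (fun p : J × ι => if p ∈ T then 1 else 0)]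
    simp
  simp only [hchi, ← Finset.prod_mul_distrib]
  rw [expect_blk_prod (fun j y => f j y * chi (Tj j) y)]
  rw [hcard] at hT
  obtain ⟨j, -, hj⟩ := Finset.exists_lt_of_sum_lt hT
  exact Finset.prod_eq_zero (Finset.mem_univ j) (hf j _ hj)

end pi

/-! ### product of two cubes -/
section pair
variable {ι κ : Type} [Fintype ι] [Fintype κ] [DecidableEq ι] [DecidableEq κ]

def lft (x : ι ⊕ κ → Bool) : ι → Bool := fun i => x (Sum.inl i)
def rgt (x : ι ⊕ κ → Bool) : κ → Bool := fun i => x (Sum.inr i)

lemma expect_pair (F : (ι → Bool) → (κ → Bool) → ℝ) :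
    𝔼 x : ι ⊕ κ → Bool, F (lft x) (rgt x) = 𝔼 y, 𝔼 z, F y z := by
  rw [← Finset.expect_product', Finset.univ_product_univ]
  exact Fintype.expect_equiv (Equiv.sumArrowEquivProdArrow ι κ Bool) _ _ fun _ => rfl

lemma expect_pair_mul (f : (ι → Bool) → ℝ) (g : (κ → Bool) → ℝ) :
    𝔼 x : ι ⊕ κ → Bool, f (lft x) * g (rgt x) = (𝔼 y, f y) * 𝔼 z, g z := by
  rw [expect_pair (fun y z => f y * g z), Fintype.expect_mul_expect]

lemma SS_pair (x : ι ⊕ κ → Bool) : SS x = SS (lft x) + SS (rgt x) := by
  unfold SS lft rgt; rw [Fintype.sum_sum_type]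

lemma Deg.pair {d e : ℕ} {f : (ι → Bool) → ℝ} {g : (κ → Bool) → ℝ} (hf : Deg d f) (hg : Deg e g) :
    Deg (d + e) (fun x : ι ⊕ κ → Bool => f (lft x) * g (rgt x)) := fun T hT => by
  have hchi : ∀ x : ι ⊕ κ → Bool, chi T x = chi T.toLeft (lft x) * chi T.toRight (rgt x) :=
    fun x => by
      unfold chi; rw [Finset.prod_sum_eq_prod_toLeft_mul_prod_toRight]; rfl
  have h2 : ∀ x : ι ⊕ κ → Bool, f (lft x) * g (rgt x) * chi T x =
      (f (lft x) * chi T.toLeft (lft x)) * (g (rgt x) * chi T.toRight (rgt x)) := fun x => by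
    rw [hchi]; ring
  simp only [h2]
  rw [expect_pair_mul (fun y => f y * chi T.toLeft y) (fun z => g z * chi T.toRight z)]
  rw [← Finset.card_toLeft_add_card_toRight] at hT
  by_cases h : d < T.toLeft.card
  · rw [hf _ h, zero_mul]
  · rw [hg _ (by omega), mul_zero]

end pair

/-! ### labelled partitions -/

/-- The fibres of `lab` have degree at most `c` and the coordinate sum has mean `z` on them. -/
def VObj {ι β : Type} [Fintype ι] [DecidableEq ι] (lab : (ι → Bool) → β) (z : β → ℝ) (c : β → ℕ) : Prop :=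
  ∀ b, Deg (c b) (fun x => ind (lab x = b)) ∧ 𝔼 x, ind (lab x = b) * (SS x - z b) = 0

/-- fixed-degree object labelled by its own values -/
def FObj {ι : Type} [Fintype ι] [DecidableEq ι] (D : ℕ) (Z : (ι → Bool) → ℝ) : Prop :=
  VObj Z id (fun _ => D)

section vobj
variable {ι β : Type} [Fintype ι] [DecidableEq ι] {lab : (ι → Bool) → β} {z : β → ℝ} {c : β → ℕ}

lemma comp_eq_sum [DecidableEq β] (lab : (ι → Bool) → β) (φ : β → ℝ) (x : ι → Bool) :
    φ (lab x) = ∑ b ∈ Finset.univ.image lab, φ b * ind (lab x = b) := by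
  rw [Finset.sum_eq_single (lab x)]
  · simp [ind]
  · intro b _ hb; rw [ind_false (Ne.symm hb), mul_zero]
  · intro h; exact absurd (Finset.mem_image_of_mem _ (Finset.mem_univ x)) h

lemma VObj.deg_comp (h : VObj lab z c) (φ : β → ℝ) {D : ℕ} (hD : ∀ b, φ b ≠ 0 → c b ≤ D) :
    Deg D (fun x => φ (lab x)) := by
  classical
  have : (fun x => φ (lab x)) = fun x => ∑ b ∈ Finset.univ.image lab, φ b * ind (lab x = b) :=
    funext (comp_eq_sum lab φ)
  rw [this]
  refine Deg.sum _ fun b _ => ?_
  by_cases hb : φ b = 0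
  · simp only [hb, zero_mul]; exact Deg.zero
  · exact ((h b).1.mono (hD b hb)).cmul _

lemma VObj.expect_comp (h : VObj lab z c) (φ : β → ℝ) :
    𝔼 x, φ (lab x) * (SS x - z (lab x)) = 0 := by
  classical
  have : ∀ x, φ (lab x) * (SS x - z (lab x)) =
      ∑ b ∈ Finset.univ.image lab, φ b * (ind (lab x = b) * (SS x - z b)) := fun x => by
    rw [comp_eq_sum lab (fun b => φ b * (SS x - z b)) x]
    exact Finset.sum_congr rfl fun b _ => by ring
  simp only [this, Finset.expect_sum_comm, ← Finset.mul_expect]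
  exact Finset.sum_eq_zero fun b _ => by rw [(h b).2, mul_zero]

lemma VObj.expect_comp' (h : VObj lab z c) (φ : β → ℝ) :
    𝔼 x, φ (lab x) * SS x = 𝔼 x, φ (lab x) * z (lab x) := by
  have := h.expect_comp φ
  simp only [mul_sub, Finset.expect_sub_distrib] at this
  linarith

lemma VObj.expect_z (h : VObj lab z c) : 𝔼 x, z (lab x) = 0 := by
  have := h.expect_comp' (fun _ => 1)
  simp only [one_mul] at this
  rw [← this, expect_SS]

lemma VObj.coarsen (h : VObj lab z c) {D : ℕ} (hD : ∀ b, c b ≤ D) :
    FObj D (fun x => z (lab x)) := fun v => by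
  refine ⟨h.deg_comp (fun b => ind (z b = v)) fun b _ => hD b, ?_⟩
  have := h.expect_comp (fun b => ind (z b = v))
  rw [← this]
  refine Finset.expect_congr rfl fun x _ => ?_
  by_cases hx : z (lab x) = v
  · simp [hx]
  · simp [ind_false hx]

lemma VObj.pi (J : Type) [Fintype J] [DecidableEq J] (h : VObj lab z c) :
    VObj (fun (x : J × ι → Bool) (j : J) => lab (blk x j)) (fun v => ∑ j, z (v j))
      (fun v => ∑ j, c (v j)) := fun v => by
  have hi : ∀ x : J × ι → Bool, ind ((fun j => lab (blk x j)) = v) =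
      ∏ j, ind (lab (blk x j) = v j) := fun x => by
    rw [← ind_forall]; exact ind_congr funext_iff
  simp only [hi]
  refine ⟨Deg.pi (f := fun j y => ind (lab y = v j)) fun j => (h (v j)).1, ?_⟩
  have h2 : ∀ x : J × ι → Bool, (∏ j, ind (lab (blk x j) = v j)) * (SS x - ∑ j, z (v j)) =
      ∑ l, ∏ j, (ind (lab (blk x j) = v j) * if j = l then SS (blk x j) - z (v j) else 1) :=
    fun x => by
      rw [SS_blk, ← Finset.sum_sub_distrib, Finset.mul_sum]
      refine Finset.sum_congr rfl fun l _ => ?_
      rw [Finset.prod_mul_distrib, Finset.prod_ite_eq']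
      simp
  simp only [h2, Finset.expect_sum_comm]
  refine Finset.sum_eq_zero fun l _ => ?_
  rw [expect_blk_prod (fun j y => ind (lab y = v j) * if j = l then SS y - z (v j) else 1)]
  exact Finset.prod_eq_zero (Finset.mem_univ l) (by simpa using (h (v l)).2)

/-- Merge all labels in `A` into one atom, given that this atom has small degree. -/
lemma VObj.merge (h : VObj lab z c) (A : β → Prop) [DecidablePred A] {c0 : ℕ}
    (hA : Deg c0 (fun x => ind (A (lab x)))) (s0 : ℝ) :
    ∃ m : ℝ, VObj (fun x => if A (lab x) then none else some (lab x))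
        (fun o : Option β => o.elim m z) (fun o => o.elim c0 c) ∧
      (𝔼 x, z (lab x) ^ 2) - (𝔼 x, ind (A (lab x)) * (z (lab x) - s0) ^ 2) ≤
        𝔼 x, ((if A (lab x) then none else some (lab x) : Option β).elim m z) ^ 2 := by
  set P : ℝ := 𝔼 x, ind (A (lab x)) with hP
  set Q : ℝ := 𝔼 x, ind (A (lab x)) * z (lab x) with hQ
  have hPQ : Q / P * P = Q := by
    by_cases h0 : P = 0
    · have := (Fintype.expect_eq_zero_iff_of_nonneg (f := fun x => ind (A (lab x)))
        (fun x => ind_nonneg _)).1 h0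
      have h1 : ∀ x, ind (A (lab x)) = 0 := fun x => congrFun this x
      simp [hQ, h1]
    · field_simp
  refine ⟨Q / P, fun o => ?_, ?_⟩
  · cases o with
    | none =>
      have hi : ∀ x, ind ((if A (lab x) then none else some (lab x)) = (none : Option β)) =
          ind (A (lab x)) := fun x => ind_congr (by by_cases hx : A (lab x) <;> simp [hx])
      simp only [hi, Option.elim]
      refine ⟨hA, ?_⟩
      simp only [mul_sub, Finset.expect_sub_distrib, ← Finset.expect_mul]
      rw [h.expect_comp' (fun b => ind (A b)), ← hQ, ← hP, mul_comm, hPQ, sub_self]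
    | some b =>
      by_cases hb : A b
      · have hi : ∀ x, ind ((if A (lab x) then none else some (lab x)) = some b) = 0 :=
          fun x => ind_false (by
            by_cases hx : A (lab x)
            · simp [hx]
            · simp only [hx, if_false, Option.some.injEq]; rintro rfl; exact hx hb)
        simp only [hi, zero_mul]
        exact ⟨Deg.zero, by simp⟩
      · have hi : ∀ x, ind ((if A (lab x) then none else some (lab x)) = some b) =
            ind (lab x = b) := fun x => ind_congr (by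
          by_cases hx : A (lab x)
          · simp only [hx, if_true, reduceCtorEq, false_iff]; rintro rfl; exact hb hx
          · simp [hx])
        simp only [hi, Option.elim]
        exact h b
  · have h1 : ∀ x, ((if A (lab x) then none else some (lab x) : Option β).elim (Q / P) z) ^ 2 =
        z (lab x) ^ 2 - ind (A (lab x)) * (z (lab x) - s0) ^ 2
          + (((Q / P) ^ 2 + s0 ^ 2) * ind (A (lab x)) - 2 * s0 * (ind (A (lab x)) * z (lab x))) :=
      fun x => by
        by_cases hx : A (lab x)
        · simp only [hx, if_true, Option.elim, ind_true]; ring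
        · simp only [hx, if_false, Option.elim, ind_false, not_false_eq_true]; ring
    simp only [h1, Finset.expect_add_distrib, Finset.expect_sub_distrib, ← Finset.mul_expect]
    rw [← hP, ← hQ]
    have hP0 : 0 ≤ P := Finset.expect_nonneg fun x _ => ind_nonneg _
    have : ((Q / P) ^ 2 + s0 ^ 2) * P - 2 * s0 * Q = P * (Q / P - s0) ^ 2 := by
      have e : 2 * s0 * Q = 2 * s0 * (Q / P * P) := by rw [hPQ]
      rw [e]; ring
    rw [this]
    have := mul_nonneg hP0 (sq_nonneg (Q / P - s0))
    linarith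

lemma FObj.zero (κ : Type) [Fintype κ] [DecidableEq κ] (D : ℕ) : FObj D (fun _ : κ → Bool => (0 : ℝ)) := fun v => by
  refine ⟨Deg.const _, ?_⟩
  by_cases hv : (0 : ℝ) = v
  · subst hv; simp [ind, expect_SS]
  · simp [ind_false hv]

/-- Running copies one after the other within a degree budget. -/
lemma VObj.seq (h : VObj lab z c) {M : ℕ} (hc1 : ∀ b, 1 ≤ c b) (hcM : ∀ b, c b ≤ M) {r : ℝ}
    (hr0 : 0 ≤ r) (hr : r * (𝔼 x, (c (lab x) : ℝ)) ≤ 𝔼 x, z (lab x) ^ 2) (m : ℕ) :
    ∃ (κ : Type) (_ : Fintype κ) (_ : DecidableEq κ), ∀ B ≤ m, ∃ Z : (κ → Bool) → ℝ, FObj B Z ∧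
      r * ((B : ℝ) - M) ≤ 𝔼 x, Z x ^ 2 := by
  induction m with
  | zero =>
    refine ⟨Unit, inferInstance, inferInstance, fun B hB => ⟨fun _ => 0, FObj.zero _ _, ?_⟩⟩
    have : B = 0 := by omega
    subst this
    simp only [Nat.cast_zero, zero_sub, ne_eq, OfNat.ofNat_ne_zero, not_false_eq_true, zero_pow,
      Finset.expect_const_zero]
    have : (0 : ℝ) ≤ M := Nat.cast_nonneg _
    nlinarith
  | succ m ih =>
    obtain ⟨κ, _, _, hκ⟩ := ih
    refine ⟨ι ⊕ κ, inferInstance, inferInstance, fun B hB => ?_⟩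
    by_cases hBM : B < M
    · refine ⟨fun _ => 0, FObj.zero _ _, ?_⟩
      simp only [ne_eq, OfNat.ofNat_ne_zero, not_false_eq_true, zero_pow,
        Finset.expect_const_zero]
      have : (B : ℝ) ≤ M := by exact_mod_cast hBM.le
      nlinarith
    push Not at hBM
    have hle : ∀ b, B - c b ≤ m := fun b => by have := hc1 b; omega
    choose Z hZ hZ2 using fun b => hκ (B - c b) (hle b)
    have hV : VObj (fun x : ι ⊕ κ → Bool => (lab (lft x), Z (lab (lft x)) (rgt x)))
        (fun p : β × ℝ => z p.1 + p.2) (fun _ => B) := fun p => by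
      obtain ⟨b, v⟩ := p
      have hi : ∀ x : ι ⊕ κ → Bool, ind ((lab (lft x), Z (lab (lft x)) (rgt x)) = (b, v)) =
          ind (lab (lft x) = b) * ind (Z b (rgt x) = v) := fun x => by
        rw [← ind_and]
        refine ind_congr ?_
        simp only [Prod.mk.injEq]
        constructor
        · rintro ⟨h1, h2⟩; exact ⟨h1, h1 ▸ h2⟩
        · rintro ⟨h1, h2⟩; exact ⟨h1, h1 ▸ h2⟩
      simp only [hi]
      constructor
      · have := Deg.pair (h b).1 (hZ b v).1
        exact this.mono (by have := hcM b; simp only; omega)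
      · have h2 : ∀ x : ι ⊕ κ → Bool, ind (lab (lft x) = b) * ind (Z b (rgt x) = v) *
            (SS x - (z b + v)) =
            (ind (lab (lft x) = b) * (SS (lft x) - z b)) * ind (Z b (rgt x) = v) +
            ind (lab (lft x) = b) * (ind (Z b (rgt x) = v) * (SS (rgt x) - v)) := fun x => by
          rw [SS_pair]; ring
        simp only [h2, Finset.expect_add_distrib]
        rw [expect_pair_mul (fun y => ind (lab y = b) * (SS y - z b)) (fun w => ind (Z b w = v)),
          expect_pair_mul (fun y => ind (lab y = b)) (fun w => ind (Z b w = v) * (SS w - v)),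
          (h b).2]
        have := (hZ b v).2
        simp only [id] at this
        rw [this]; simp
    refine ⟨_, hV.coarsen (D := B) fun _ => le_rfl, ?_⟩
    simp only
    rw [expect_pair (fun y w => (z (lab y) + Z (lab y) w) ^ 2)]
    have h3 : ∀ y, z (lab y) ^ 2 + r * (((B : ℝ) - c (lab y)) - M) ≤
        𝔼 w, (z (lab y) + Z (lab y) w) ^ 2 := fun y => by
      have e1 : ∀ w, (z (lab y) + Z (lab y) w) ^ 2 =
          z (lab y) ^ 2 + 2 * z (lab y) * Z (lab y) w + Z (lab y) w ^ 2 := fun w => by ring
      simp only [e1, Finset.expect_add_distrib, ← Finset.mul_expect, Fintype.expect_const]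
      have e2 := (hZ (lab y)).expect_z
      simp only [id] at e2
      rw [e2]
      have e3 := hZ2 (lab y)
      rw [Nat.cast_sub ((hcM _).trans hBM)] at e3
      linarith
    refine le_trans ?_ (Finset.expect_le_expect fun y _ => h3 y)
    simp only [Finset.expect_add_distrib, Finset.expect_sub_distrib, ← Finset.mul_expect,
      Fintype.expect_const]
    nlinarith

end vobj

end

end Crest.Agent.R63
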