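import Crest.Agent.R63.Basic

/-! The central limit theorem for normalised sums of copies of a function on a cube. -/

set_option autoImplicit false

namespace Crest.Agent.R63

open Finset MeasureTheory ProbabilityTheory Filter
open scoped BigOperators Topology ENNReal

noncomputable section

/-- the law of a function on a finite type under the uniform distribution -/
def law {Ω : Type} [Fintype Ω] (W : Ω → ℝ) : Measure ℝ :=
  ∑ ω, (Fintype.card Ω : ℝ≥0∞)⁻¹ • Measure.dirac (W ω)

instance law_prob {Ω : Type} [Fintype Ω] [Nonempty Ω] (W : Ω → ℝ) :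
    IsProbabilityMeasure (law W) where
  measure_univ := by
    simp only [law, Measure.coe_finsetSum, Finset.sum_apply, Measure.smul_apply, measure_univ,
      smul_eq_mul, mul_one, Finset.sum_const, Finset.card_univ, nsmul_eq_mul]
    exact ENNReal.mul_inv_cancel (by simp) (by simp)

lemma integral_law {Ω : Type} [Fintype Ω] [Nonempty Ω] (W : Ω → ℝ) {K : Type} [RCLike K]
    (φ : ℝ → K) : ∫ t, φ t ∂(law W) = 𝔼 ω, φ (W ω) := by
  rw [law, integral_finsetSum_measure]
  · simp only [integral_smul_measure, integral_dirac, Fintype.expect_eq_sum_div_card,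
      ← Finset.smul_sum]
    rw [RCLike.real_smul_eq_coe_mul]
    simp [div_eq_inv_mul]
  · exact fun _ _ => (integrable_dirac (by simp)).smul_measure (by simp)

variable {ι : Type} [Fintype ι] [DecidableEq ι]

/-- normalised sum of `N` copies -/
def nsum (W : (ι → Bool) → ℝ) (N : ℕ) (x : Fin N × ι → Bool) : ℝ :=
  (√N)⁻¹ * ∑ j, W (blk x j)

lemma charFun_nsum (W : (ι → Bool) → ℝ) (N : ℕ) (t : ℝ) :
    charFun (law (nsum W N)) t = (charFun (law W) ((√N)⁻¹ * t)) ^ N := by
  rw [charFun_apply_real, charFun_apply_real, integral_law, integral_law]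
  have : ∀ x : Fin N × ι → Bool, Complex.exp (t * (nsum W N x : ℝ) * Complex.I) =
      ∏ j, Complex.exp ((((√N)⁻¹ * t : ℝ) : ℂ) * (W (blk x j) : ℝ) * Complex.I) := fun x => by
    rw [← Complex.exp_sum, nsum]
    congr 1
    push_cast
    rw [← Finset.sum_mul, ← Finset.mul_sum]; ring
  simp only [this]
  rw [expect_blk_prod (fun (_ : Fin N) y =>
    Complex.exp ((((√N)⁻¹ * t : ℝ) : ℂ) * (W y : ℝ) * Complex.I))]
  simp

lemma clt (W : (ι → Bool) → ℝ) (h0 : 𝔼 y, W y = 0) (h2 : 𝔼 y, W y ^ 2 = 1) :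
    Tendsto (β := ProbabilityMeasure ℝ) (fun N => ⟨law (nsum W N), law_prob _⟩) atTop
      (𝓝 ⟨gaussianReal 0 1, inferInstance⟩) := by
  refine ProbabilityMeasure.tendsto_iff_tendsto_charFun.2 fun t => ?_
  have := tendsto_charFun_inv_sqrt_mul_pow (P := law W) (X := id) aemeasurable_id
    (by simpa using (integral_law W (fun t : ℝ => t)).trans h0)
    (by simpa using (integral_law W (fun t : ℝ => t ^ 2)).trans h2) t
  simpa [charFun_nsum, charFun_gaussianReal, neg_div] using this

lemma clt_set (W : (ι → Bool) → ℝ) (h0 : 𝔼 y, W y = 0) (h2 : 𝔼 y, W y ^ 2 = 1) {s : Set ℝ}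
    (hs : MeasurableSet s) (hf : (frontier s).Finite) :
    Tendsto (fun N => 𝔼 x, ind (nsum W N x ∈ s)) atTop (𝓝 ((gaussianReal 0 1).real s)) := by
  have := nullSingletonClass_gaussianReal (μ := 0) (v := 1) one_ne_zero
  have h := ProbabilityMeasure.tendsto_measure_of_null_frontier_of_tendsto' (clt W h0 h2)
    (E := s) (hf.measure_zero (gaussianReal 0 1))
  have h' := (ENNReal.tendsto_toReal (measure_ne_top (gaussianReal 0 1) s)).comp h
  refine h'.congr fun N => ?_
  have := integral_law (nsum W N) (s.indicator (1 : ℝ → ℝ))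
  rw [integral_indicator_one hs] at this
  simp only [Function.comp, ProbabilityMeasure.coe_mk]
  rw [← measureReal_def, this]
  refine Finset.expect_congr rfl fun x _ => ?_
  by_cases hx : nsum W N x ∈ s
  · simp [ind, hx]
  · simp [ind, hx]

lemma clt_bdd (W : (ι → Bool) → ℝ) (h0 : 𝔼 y, W y = 0) (h2 : 𝔼 y, W y ^ 2 = 1) (f : ℝ → ℝ)
    (hf : Continuous f) (C : ℝ) (hC : ∀ t, ‖f t‖ ≤ C) :
    Tendsto (fun N => 𝔼 x, f (nsum W N x)) atTop (𝓝 (∫ t, f t ∂(gaussianReal 0 1))) := by
  have h := ProbabilityMeasure.tendsto_iff_forall_integral_tendsto.1 (clt W h0 h2)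
    (BoundedContinuousFunction.ofNormedAddCommGroup f hf C hC)
  refine h.congr fun N => ?_
  exact integral_law (nsum W N) f

/-- two-sided comparison of the Gaussian density near a point -/
lemma pdf_bounds {K x t : ℝ} (hx : |x| ≤ K) (ht : |t - x| ≤ 2) :
    Real.exp (-(2 * K + 2)) * gaussianPDFReal 0 1 x ≤ gaussianPDFReal 0 1 t ∧
      gaussianPDFReal 0 1 t ≤ Real.exp (2 * K + 2) * gaussianPDFReal 0 1 x := by
  simp only [gaussianPDFReal_def, NNReal.coe_one, mul_one, sub_zero]
  have hc : 0 ≤ (√(2 * Real.pi))⁻¹ := by positivity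
  have h1 := abs_le.1 hx
  have h2 := abs_le.1 ht
  have h3 : |t ^ 2 - x ^ 2| ≤ 2 * (2 * K + 2) := by
    have : t ^ 2 - x ^ 2 = (t - x) * (t + x) := by ring
    rw [this, abs_mul]
    refine mul_le_mul ht (abs_le.2 ⟨by linarith, by linarith⟩) (abs_nonneg _) (by norm_num)
  have h4 := abs_le.1 h3
  constructor
  · rw [mul_left_comm, ← Real.exp_add]
    exact mul_le_mul_of_nonneg_left (Real.exp_le_exp.2 (by linarith)) hc
  · rw [mul_left_comm, ← Real.exp_add]
    exact mul_le_mul_of_nonneg_left (Real.exp_le_exp.2 (by linarith)) hc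

lemma gauss_real_eq (s : Set ℝ) :
    (gaussianReal 0 1).real s = ∫ t in s, gaussianPDFReal 0 1 t := by
  rw [measureReal_def, gaussianReal_apply_eq_integral _ one_ne_zero, ENNReal.toReal_ofReal]
  exact integral_nonneg fun t => gaussianPDFReal_nonneg _ _ _

lemma gauss_Ioo_ge {u v m : ℝ} (huv : u ≤ v) (hm : ∀ t ∈ Set.Ioo u v, m ≤ gaussianPDFReal 0 1 t) :
    m * (v - u) ≤ (gaussianReal 0 1).real (Set.Ioo u v) := by
  rw [gauss_real_eq]
  have := setIntegral_ge_of_const_le_real (μ := volume) measurableSet_Ioo (by simp) hm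
    (integrable_gaussianPDFReal 0 1).integrableOn
  simpa [huv] using this

lemma gauss_Icc_le {u v m : ℝ} (huv : u ≤ v) (hm : ∀ t ∈ Set.Icc u v, gaussianPDFReal 0 1 t ≤ m) :
    (gaussianReal 0 1).real (Set.Icc u v) ≤ m * (v - u) := by
  rw [gauss_real_eq]
  have := setIntegral_mono_on (μ := volume) (s := Set.Icc u v)
    (integrable_gaussianPDFReal 0 1).integrableOn (integrableOn_const (by simp))
    measurableSet_Icc hm
  simpa [huv, mul_comm] using this

lemma gauss_tail : ∃ C : ℝ, 0 ≤ C ∧ ∀ K : ℝ, 0 ≤ K →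
    1 - ∫ t, min (t ^ 2) (K ^ 2 / 4) ∂(gaussianReal 0 1) ≤ Real.exp (-(25 * K)) * C := by
  have i1 := integrable_exp_mul_gaussianReal (μ := 0) (v := 1) 52
  have i2 := integrable_exp_mul_gaussianReal (μ := 0) (v := 1) (-52)
  refine ⟨∫ t, (Real.exp (52 * t) + Real.exp (-52 * t)) ∂(gaussianReal 0 1),
    integral_nonneg fun t => by positivity, fun K hK => ?_⟩
  have isq : Integrable (fun t : ℝ => t ^ 2) (gaussianReal 0 1) :=
    (memLp_id_gaussianReal (μ := 0) (v := 1) 2).integrable_sq
  have hsq : ∫ t, t ^ 2 ∂(gaussianReal 0 1) = 1 := by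
    have := variance_fun_id_gaussianReal (μ := 0) (v := 1)
    rw [variance_eq_integral (by fun_prop)] at this
    simpa using this
  have imin : Integrable (fun t : ℝ => min (t ^ 2) (K ^ 2 / 4)) (gaussianReal 0 1) :=
    isq.inf (integrable_const _)
  rw [← hsq, ← integral_sub isq imin, ← integral_const_mul]
  refine integral_mono (isq.sub imin) ((i1.add i2).const_mul _) fun t => ?_
  simp only
  by_cases h : t ^ 2 ≤ K ^ 2 / 4
  · rw [min_eq_left h, sub_self]; positivity
  · push Not at h
    rw [min_eq_right h.le]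
    have ht : K / 2 ≤ |t| := by
      refine le_of_sq_le_sq ?_ (abs_nonneg _)
      rw [sq_abs]; linarith
    have h1 : t ^ 2 ≤ Real.exp (2 * |t|) := by
      have := Real.add_one_le_exp |t|
      rw [two_mul, Real.exp_add, ← sq_abs, sq]
      exact mul_le_mul (by linarith) (by linarith) (abs_nonneg _) (by positivity)
    have h2 : Real.exp (52 * |t|) ≤ Real.exp (52 * t) + Real.exp (-52 * t) := by
      rcases abs_cases t with h | h
      · rw [h.1]; linarith [Real.exp_pos (-52 * t)]
      · rw [h.1]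
        have : 52 * -t = -52 * t := by ring
        rw [this]; linarith [Real.exp_pos (52 * t)]
    have h3 : Real.exp (2 * |t|) ≤ Real.exp (-(25 * K)) * Real.exp (52 * |t|) := by
      rw [← Real.exp_add]; exact Real.exp_le_exp.2 (by linarith)
    have h4 := mul_le_mul_of_nonneg_left h2 (Real.exp_pos (-(25 * K))).le
    nlinarith [sq_nonneg K]

end

end Crest.Agent.R63
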