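import Crest.Agent.R63.Basic

/-! The comb gadget: a Boolean function of `k+1` blocks of block degree `k`. -/

set_option autoImplicit false

namespace Crest.Agent.R63

open Finset
open scoped BigOperators

noncomputable section

variable {ι : Type} [Fintype ι] [DecidableEq ι]

lemma expect_prod_sq {L : Type} [Fintype L] [DecidableEq L] (f g : L → (ι → Bool) → ℝ) (l0 : L)
    (hc : ∀ l, l ≠ l0 → 𝔼 y, f l y * g l y = 0) :
    𝔼 x : L × ι → Bool, (∏ l, f l (blk x l)) * (∑ l, g l (blk x l)) ^ 2 =
      ∑ l, (𝔼 y, f l y * g l y ^ 2) * ∏ l' ∈ Finset.univ.erase l, 𝔼 y, f l' y := by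
  have h1 : ∀ x : L × ι → Bool, (∏ l, f l (blk x l)) * (∑ l, g l (blk x l)) ^ 2 =
      ∑ a, ∑ b, ∏ l, (f l (blk x l) * (if l = a then g l (blk x l) else 1) *
        (if l = b then g l (blk x l) else 1)) := fun x => by
    rw [sq, Finset.sum_mul_sum, Finset.mul_sum]
    refine Finset.sum_congr rfl fun a _ => ?_
    rw [Finset.mul_sum]
    refine Finset.sum_congr rfl fun b _ => ?_
    rw [Finset.prod_mul_distrib, Finset.prod_mul_distrib, Finset.prod_ite_eq', Finset.prod_ite_eq']
    simp [mul_assoc]
  simp only [h1, Finset.expect_sum_comm]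
  refine Finset.sum_congr rfl fun a _ => ?_
  have h2 : ∀ b, 𝔼 x : L × ι → Bool, ∏ l, (f l (blk x l) * (if l = a then g l (blk x l) else 1) *
        (if l = b then g l (blk x l) else 1)) =
      ∏ l, 𝔼 y, (f l y * (if l = a then g l y else 1) * (if l = b then g l y else 1)) :=
    fun b => expect_blk_prod
      (fun l y => f l y * (if l = a then g l y else 1) * (if l = b then g l y else 1))
  simp only [h2]
  rw [Finset.sum_eq_single a]
  · rw [← Finset.mul_prod_erase _ _ (Finset.mem_univ a)]
    congr 1
    · simp [sq, mul_assoc]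
    · refine Finset.prod_congr rfl fun l hl => ?_
      simp [Finset.ne_of_mem_erase hl]
  · intro b _ hba
    by_cases ha : a = l0
    · refine Finset.prod_eq_zero (Finset.mem_univ b) ?_
      simpa [hba] using hc b (ha ▸ hba)
    · refine Finset.prod_eq_zero (Finset.mem_univ a) ?_
      simpa [Ne.symm hba] using hc a ha
  · simp

section comb
variable {J : Type} [Fintype J] [DecidableEq J]

/-- the comb event -/
def CombA (τ : ℝ → J) (I : J → ℝ → Prop) (v : Option J → ℝ) : Prop :=
  ¬ I (τ (v none)) (v (some (τ (v none)))) ∧ ∀ i, i ≠ τ (v none) → I i (v (some i))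

/-- factors of the `j`-th tooth -/
def fT (τ : ℝ → J) (I : J → ℝ → Prop) (j : J) : Option J → ℝ → ℝ
  | none, w => ind (τ w = j)
  | some i, w => if i = j then 1 else ind (I i w)

/-- factors of the spine -/
def fS (I : J → ℝ → Prop) : Option J → ℝ → ℝ
  | none, _ => 1
  | some i, w => ind (I i w)

lemma ind_CombA (τ : ℝ → J) (I : J → ℝ → Prop) (v : Option J → ℝ) :
    ind (CombA τ I v) = (∑ j, ∏ l, fT τ I j l (v l)) - ∏ l, fS I l (v l) := by
  simp only [Fintype.prod_option, fT, fS, one_mul]
  rw [Finset.sum_eq_single (τ (v none)) (fun j _ hj => by rw [ind_false (Ne.symm hj), zero_mul])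
    (by simp), ind_true rfl, one_mul]
  set t := τ (v none) with ht
  rw [← Finset.mul_prod_erase _ _ (Finset.mem_univ t), ← Finset.mul_prod_erase _
    (fun i => ind (I i (v (some i)))) (Finset.mem_univ t)]
  have e1 : ∏ i ∈ Finset.univ.erase t, (if i = t then (1 : ℝ) else ind (I i (v (some i)))) =
      ∏ i ∈ Finset.univ.erase t, ind (I i (v (some i))) :=
    Finset.prod_congr rfl fun i hi => by simp [Finset.ne_of_mem_erase hi]
  rw [e1]
  unfold CombA
  rw [← ht, ind_and]
  have e2 : ind (∀ i, i ≠ t → I i (v (some i))) =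
      ∏ i ∈ Finset.univ.erase t, ind (I i (v (some i))) := by
    by_cases h : ∀ i, i ≠ t → I i (v (some i))
    · rw [ind_true h]; symm
      exact Finset.prod_eq_one fun i hi => ind_true (h i (Finset.ne_of_mem_erase hi))
    · rw [ind_false h]; push Not at h; obtain ⟨i, hi, hi'⟩ := h
      symm
      exact Finset.prod_eq_zero (Finset.mem_erase.2 ⟨hi, Finset.mem_univ _⟩) (ind_false hi')
  rw [e2]
  by_cases h : I t (v (some t))
  · simp [ind, h]
  · simp [ind, h]

lemma deg_CombA {D : ℕ} {Z : (ι → Bool) → ℝ} (hZ : FObj D Z) (σ : ℝ) (τ : ℝ → J)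
    (I : J → ℝ → Prop) :
    Deg (Fintype.card J * D)
      (fun x : Option J × ι → Bool => ind (CombA τ I fun l => Z (blk x l) / σ)) := by
  simp only [ind_CombA]
  refine Deg.sub (Deg.sum _ fun j _ => ?_) ?_
  · have := Deg.pi (d := fun l : Option J => if l = some j then 0 else D)
      (f := fun l y => fT τ I j l (Z y / σ)) (fun l => by
        by_cases hl : l = some j
        · subst hl; simp only [fT, if_true]; exact Deg.const _
        · simp only [hl, if_false]
          exact hZ.deg_comp (fun w => fT τ I j l (w / σ)) fun _ _ => le_rfl)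
    refine this.mono (le_of_eq ?_)
    rw [← Finset.add_sum_erase _ _ (Finset.mem_univ (some j))]
    rw [Finset.sum_congr rfl (g := fun _ => D) fun l hl => by simp [Finset.ne_of_mem_erase hl]]
    simp
  · have := Deg.pi (d := fun l : Option J => if l = none then 0 else D)
      (f := fun l y => fS I l (Z y / σ)) (fun l => by
        by_cases hl : l = none
        · subst hl; simp only [fS, if_true]; exact Deg.const _
        · simp only [hl, if_false]
          exact hZ.deg_comp (fun w => fS I l (w / σ)) fun _ _ => le_rfl)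
    refine this.mono (le_of_eq ?_)
    simp [Fintype.sum_option]

lemma comb_bound (W : (ι → Bool) → ℝ) (hW0 : 𝔼 y, W y = 0) (hW2 : 𝔼 y, W y ^ 2 = 1)
    (τ : ℝ → J) (I : J → ℝ → Prop) (p μ : J → ℝ) (a : ℝ)
    (hp : ∀ j, p j = 𝔼 y, ind (I j (W y))) (hp0 : ∀ j, 0 < p j)
    (hμ : ∀ j, μ j * p j = 𝔼 y, ind (I j (W y)) * W y)
    (ha : ∀ j w, I j w → (w - μ j) ^ 2 ≤ a ^ 2) :
    𝔼 x : Option J × ι → Bool, ind (CombA τ I fun l => W (blk x l)) *
        ((∑ l, W (blk x l) - (∑ j, μ j - 1)) ^ 2 - 1) ≤
      (∏ j, p j) * ((∑ j, (𝔼 y, ind (τ (W y) = j) *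
        ((W y - μ j + 1) ^ 2 + Fintype.card J * a ^ 2)) / p j) - 1) := by
  set P := ∏ j, p j with hP
  have hP0 : 0 < P := Finset.prod_pos fun j _ => hp0 j
  have hcen : ∀ i, 𝔼 y, ind (I i (W y)) * (W y - μ i) = 0 := fun i => by
    simp only [mul_sub, Finset.expect_sub_distrib, ← Finset.expect_mul]
    rw [← hμ, ← hp]; ring
  have hu : ∀ i, 𝔼 y, ind (I i (W y)) * (W y - μ i) ^ 2 ≤ p i * a ^ 2 := fun i => by
    rw [hp, Finset.expect_mul]
    refine Finset.expect_le_expect fun y _ => ?_
    by_cases h : I i (W y)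
    · rw [ind_true h, one_mul, one_mul]; exact ha i _ h
    · rw [ind_false h]; simp
  have hu0 : ∀ i, 0 ≤ 𝔼 y, ind (I i (W y)) * (W y - μ i) ^ 2 := fun i =>
    Finset.expect_nonneg fun y _ => mul_nonneg (ind_nonneg _) (sq_nonneg _)
  have hPe : ∀ i, ∏ i' ∈ Finset.univ.erase i, p i' = P / p i := fun i => by
    rw [hP, ← Finset.mul_prod_erase _ _ (Finset.mem_univ i)]
    field_simp [(hp0 i).ne']
  -- the spine
  have hS : P ≤ 𝔼 x : Option J × ι → Bool, (∏ l, fS I l (W (blk x l))) *
      ((∑ l, W (blk x l) - (∑ j, μ j - 1)) ^ 2 - 1) := by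
    let g : Option J → (ι → Bool) → ℝ := fun l y => l.elim (W y + 1) fun i => W y - μ i
    have e1 : ∀ x : Option J × ι → Bool, ∑ l, W (blk x l) - (∑ j, μ j - 1) =
        ∑ l, g l (blk x l) := fun x => by
      simp only [Fintype.sum_option, g, Option.elim, Finset.sum_sub_distrib]; ring
    simp only [e1, mul_sub, mul_one, Finset.expect_sub_distrib]
    rw [expect_prod_sq (fun l y => fS I l (W y)) g none (fun l hl => by
        cases l with
        | none => exact absurd rfl hl
        | some i => exact hcen i),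
      expect_blk_prod (fun l y => fS I l (W y))]
    have e2 : ∀ l : Option J, 𝔼 y, fS I l (W y) = l.elim 1 p := fun l => by
      cases l with
      | none => simp [fS]
      | some i => simp [fS, hp]
    simp only [e2]
    rw [Fintype.sum_option, Fintype.prod_option]
    have e3 : ∏ l' ∈ (Finset.univ : Finset (Option J)).erase none, l'.elim 1 p = P := by
      have := Finset.mul_prod_erase (Finset.univ : Finset (Option J)) (fun l => l.elim 1 p)
        (Finset.mem_univ none)
      rw [Fintype.prod_option] at this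
      simpa using this
    have e4 : 𝔼 y, fS I none (W y) * g none y ^ 2 = 2 := by
      have : ∀ y, fS I none (W y) * g none y ^ 2 = W y ^ 2 + 2 * W y + 1 := fun y => by
        simp only [fS, g, Option.elim]; ring
      simp only [this, Finset.expect_add_distrib, ← Finset.mul_expect, hW0, hW2,
        Fintype.expect_const]
      norm_num
    rw [e3, e4]
    have e5 : 0 ≤ ∑ i, (𝔼 y, fS I (some i) (W y) * g (some i) y ^ 2) *
        ∏ l' ∈ (Finset.univ : Finset (Option J)).erase (some i), l'.elim 1 p :=
      Finset.sum_nonneg fun i _ => mul_nonneg (hu0 i) (Finset.prod_nonneg fun l _ => by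
        cases l with
        | none => simp
        | some i => exact (hp0 i).le)
    simp only [Option.elim, one_mul] at e5 ⊢
    linarith
  -- the teeth
  have hT : ∀ j, 𝔼 x : Option J × ι → Bool, (∏ l, fT τ I j l (W (blk x l))) *
      ((∑ l, W (blk x l) - (∑ j, μ j - 1)) ^ 2 - 1) ≤
      P * ((𝔼 y, ind (τ (W y) = j) * ((W y - μ j + 1) ^ 2 + Fintype.card J * a ^ 2)) / p j) := by
    intro j
    let g : Option J → (ι → Bool) → ℝ := fun l y =>
      l.elim (W y - μ j + 1) fun i => if i = j then W y else W y - μ i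
    have e1 : ∀ x : Option J × ι → Bool, ∑ l, W (blk x l) - (∑ j, μ j - 1) =
        ∑ l, g l (blk x l) := fun x => by
      simp only [Fintype.sum_option, g, Option.elim]
      have : ∀ i, (if i = j then W (blk x (some i)) else W (blk x (some i)) - μ i) =
          W (blk x (some i)) - μ i + if i = j then μ i else 0 := fun i => by
        split_ifs <;> ring
      simp only [this, Finset.sum_add_distrib, Finset.sum_sub_distrib, Finset.sum_ite_eq',
        Finset.mem_univ, if_true]
      ring
    simp only [e1, mul_sub, mul_one, Finset.expect_sub_distrib]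
    rw [expect_prod_sq (fun l y => fT τ I j l (W y)) g none (fun l hl => by
        cases l with
        | none => exact absurd rfl hl
        | some i =>
          by_cases hi : i = j
          · simp only [fT, g, Option.elim, hi, if_true, one_mul]; exact hW0
          · simp only [fT, g, Option.elim, hi, if_false]; exact hcen i),
      expect_blk_prod (fun l y => fT τ I j l (W y))]
    set π := 𝔼 y, ind (τ (W y) = j) with hπ
    have hπ0 : 0 ≤ π := Finset.expect_nonneg fun y _ => ind_nonneg _
    let q : J → ℝ := fun i => if i = j then 1 else p i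
    have hq0 : ∀ i, 0 < q i := fun i => by
      simp only [q]; split_ifs
      · exact one_pos
      · exact hp0 i
    have e2 : ∀ l : Option J, 𝔼 y, fT τ I j l (W y) = l.elim π q := fun l => by
      cases l with
      | none => simp [fT, hπ]
      | some i =>
        by_cases hi : i = j
        · simp [fT, q, hi]
        · simp [fT, q, hi, hp]
    have eq : ∏ i, q i = P / p j := by
      rw [← hPe j, ← Finset.mul_prod_erase _ _ (Finset.mem_univ j)]
      simp only [q, if_true, one_mul]
      exact Finset.prod_congr rfl fun i hi => by simp [Finset.ne_of_mem_erase hi]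
    simp only [e2]
    rw [Fintype.sum_option, Fintype.prod_option]
    have e3 : ∏ l' ∈ (Finset.univ : Finset (Option J)).erase none, l'.elim π q = P / p j := by
      rw [← eq]
      have : (Finset.univ : Finset (Option J)).erase none =
          Finset.univ.map Function.Embedding.some := by
        ext l; cases l <;> simp
      rw [this, Finset.prod_map]; rfl
    have e6 : ∀ i, ∏ l' ∈ (Finset.univ : Finset (Option J)).erase (some i), l'.elim π q =
        π * (P / p j) / q i := fun i => by
      have := Finset.mul_prod_erase (Finset.univ : Finset (Option J)) (fun l => l.elim π q)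
        (Finset.mem_univ (some i))
      rw [Fintype.prod_option] at this
      simp only [Option.elim] at this ⊢
      rw [eq] at this
      rw [← this]; field_simp [(hq0 i).ne']
    have e7 : ∀ i, (𝔼 y, fT τ I j (some i) (W y) * g (some i) y ^ 2) * (π * (P / p j) / q i) ≤
        π * (P / p j) * (a ^ 2 + if i = j then 1 else 0) := fun i => by
      have h0 : 0 ≤ π * (P / p j) := mul_nonneg hπ0 (div_pos hP0 (hp0 j)).le
      by_cases hi : i = j
      · simp only [fT, g, q, Option.elim, hi, if_true, one_mul, hW2, div_one]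
        nlinarith [sq_nonneg a]
      · simp only [fT, g, q, Option.elim, hi, if_false, add_zero]
        calc _ ≤ p i * a ^ 2 * (π * (P / p j) / p i) :=
              mul_le_mul_of_nonneg_right (hu i) (div_nonneg h0 (hp0 i).le)
          _ = _ := by field_simp [(hp0 i).ne']
    simp only [e3, e6]
    have e8 := Finset.sum_le_sum fun i (_ : i ∈ Finset.univ) => e7 i
    rw [← Finset.mul_sum, Finset.sum_add_distrib, Finset.sum_ite_eq'] at e8
    simp only [Finset.sum_const, Finset.card_univ, nsmul_eq_mul, Finset.mem_univ, if_true] at e8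
    simp only [Option.elim] at e8 ⊢
    rw [eq]
    have e9 : 𝔼 y, ind (τ (W y) = j) * ((W y - μ j + 1) ^ 2 + Fintype.card J * a ^ 2) =
        (𝔼 y, fT τ I j none (W y) * g none y ^ 2) + π * (Fintype.card J * a ^ 2) := by
      simp only [mul_add, Finset.expect_add_distrib, hπ, Finset.expect_mul, fT, g, Option.elim]
    rw [e9]
    have e10 : P * (((𝔼 y, fT τ I j none (W y) * g none y ^ 2) +
        π * (Fintype.card J * a ^ 2)) / p j) = (𝔼 y, fT τ I j none (W y) * g none y ^ 2) *
          (P / p j) + π * (P / p j) * (Fintype.card J * a ^ 2) := by ring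
    rw [e10]
    simp only [g, Option.elim] at e8 ⊢
    nlinarith
  simp only [ind_CombA, sub_mul, Finset.sum_mul, Finset.expect_sub_distrib, Finset.expect_sum_comm]
  have := Finset.sum_le_sum fun j (_ : j ∈ Finset.univ) => hT j
  rw [← Finset.mul_sum] at this
  rw [mul_sub]
  linarith

/-- One amplification step, given that the comb functional is negative. -/
lemma comb_step [Nonempty J] {D : ℕ} (hD : 1 ≤ D) {Z : (ι → Bool) → ℝ} (hZ : FObj D Z) {σ : ℝ}
    (hσ : 0 < σ) (hZ2 : 𝔼 y, Z y ^ 2 = σ ^ 2) (τ : ℝ → J) (I : J → ℝ → Prop) (s0 g : ℝ)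
    (hg : 0 < g)
    (hΛ : 𝔼 x : Option J × ι → Bool, ind (CombA τ I fun l => Z (blk x l) / σ) *
        ((∑ l, Z (blk x l) / σ - s0) ^ 2 - 1) ≤ -g) :
    ∃ (κ : Type) (_ : Fintype κ) (_ : DecidableEq κ) (B : ℕ) (Z' : (κ → Bool) → ℝ),
      1 ≤ B ∧ FObj B Z' ∧
      σ ^ 2 / D * (1 + g / (2 * (Fintype.card J + 1))) * B ≤ 𝔼 x, Z' x ^ 2 := by
  classical
  set k := Fintype.card J with hk
  have hk1 : 1 ≤ k := Fintype.card_pos
  have hV := hZ.pi (Option J)
  obtain ⟨m, hm, hvar⟩ := hV.merge (fun v => CombA τ I fun l => v l / σ) (c0 := k * D)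
    (deg_CombA hZ σ τ I) (σ * s0)
  set α := 𝔼 x : Option J × ι → Bool, ind (CombA τ I fun l => Z (blk x l) / σ) with hα
  have hα0 : 0 ≤ α := Finset.expect_nonneg fun _ _ => ind_nonneg _
  have hD0 : (0 : ℝ) < D := by exact_mod_cast hD
  have hk0 : (0 : ℝ) < k + 1 := by positivity
  have hT2 : 𝔼 x : Option J × ι → Bool, (∑ l, Z (blk x l)) ^ 2 = (k + 1) * σ ^ 2 := by
    have := expect_prod_sq (ι := ι) (fun (_ : Option J) _ => 1) (fun _ y => Z y) none
      (fun l _ => by simpa using hZ.expect_z)
    simp only [Finset.prod_const_one, one_mul, Fintype.expect_const, mul_one, hZ2,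
      Finset.sum_const, Finset.card_univ, Fintype.card_option, nsmul_eq_mul] at this
    rw [this]; push_cast; ring
  have hA2 : 𝔼 x : Option J × ι → Bool, ind (CombA τ I fun l => Z (blk x l) / σ) *
      (∑ l, Z (blk x l) - σ * s0) ^ 2 ≤ σ ^ 2 * (α - g) := by
    have e : ∀ x : Option J × ι → Bool, ind (CombA τ I fun l => Z (blk x l) / σ) *
        (∑ l, Z (blk x l) - σ * s0) ^ 2 = σ ^ 2 * (ind (CombA τ I fun l => Z (blk x l) / σ) *
        ((∑ l, Z (blk x l) / σ - s0) ^ 2 - 1) + ind (CombA τ I fun l => Z (blk x l) / σ)) :=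
      fun x => by
        rw [← Finset.sum_div]; field_simp; ring
    simp only [e, ← Finset.mul_expect, Finset.expect_add_distrib]
    rw [← hα]
    exact mul_le_mul_of_nonneg_left (by linarith) (sq_nonneg _)
  set γ := g / (2 * ((k : ℝ) + 1)) with hγ
  have hγ0 : 0 < γ := by positivity
  set r := σ ^ 2 / D * (1 + 2 * γ) with hr
  have hc : 𝔼 x : Option J × ι → Bool,
      (((if CombA τ I (fun l => Z (blk x l) / σ) then none else some fun l => Z (blk x l) :
        Option (Option J → ℝ)).elim (k * D) (fun _ => ∑ _l : Option J, D) : ℕ) : ℝ) =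
      D * (k + 1 - α) := by
    have e : ∀ x : Option J × ι → Bool,
      (((if CombA τ I (fun l => Z (blk x l) / σ) then none else some fun l => Z (blk x l) :
        Option (Option J → ℝ)).elim (k * D) (fun _ => ∑ _l : Option J, D) : ℕ) : ℝ) =
      D * (k + 1 - ind (CombA τ I fun l => Z (blk x l) / σ)) := fun x => by
      by_cases h : CombA τ I (fun l => Z (blk x l) / σ)
      · simp only [h, if_true, Option.elim, ind_true]; push_cast; ring
      · simp only [h, if_false, Option.elim, ind_false, not_false_eq_true, Finset.sum_const,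
          Finset.card_univ, Fintype.card_option, smul_eq_mul]
        push_cast; ring
    simp only [e, ← Finset.mul_expect, Finset.expect_sub_distrib, Fintype.expect_const]
    rfl
  obtain ⟨B, hB⟩ := exists_nat_ge ((1 + 2 * γ) * ((k + 1) * D) / γ)
  obtain ⟨κ, _, _, hκ⟩ := hm.seq (M := (k + 1) * D) (r := r)
    (fun o => by
      cases o with
      | none => simp only [Option.elim]; nlinarith
      | some v => simp only [Option.elim, Finset.sum_const, Finset.card_univ, Fintype.card_option,
          smul_eq_mul]; nlinarith)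
    (fun o => by
      cases o with
      | none => simp only [Option.elim]; nlinarith
      | some v => simp only [Option.elim, Finset.sum_const, Finset.card_univ, Fintype.card_option,
          smul_eq_mul]; rfl)
    (by positivity)
    (by
      refine le_trans ?_ hvar
      simp only [id] at hc ⊢
      rw [hc, hT2]
      have e : r * (D * (k + 1 - α)) = σ ^ 2 * (k + 1 - α) + σ ^ 2 * g - σ ^ 2 * (2 * γ * α) := by
        rw [hr, hγ]; field_simp; ring
      have : 0 ≤ σ ^ 2 * (2 * γ * α) := by positivity
      rw [e]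
      nlinarith) (B + 1)
  obtain ⟨Z', hZ', hZ'2⟩ := hκ (B + 1) le_rfl
  refine ⟨κ, inferInstance, inferInstance, B + 1, Z', by omega, hZ', le_trans ?_ hZ'2⟩
  rw [hr, mul_assoc, mul_assoc]
  refine mul_le_mul_of_nonneg_left ?_ (by positivity)
  rw [div_le_iff₀ hγ0] at hB
  push_cast
  nlinarith

end comb

end

end Crest.Agent.R63
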