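import Crest.Agent.R63.Comb
import Crest.Agent.R63.Clt

/-! A comb whose functional is negative for nearly Gaussian scores. -/

set_option autoImplicit false

namespace Crest.Agent.R63

open Finset MeasureTheory ProbabilityTheory Filter
open scoped BigOperators Topology ENNReal

noncomputable section

lemma cost_bound {ι : Type} [Fintype ι] [DecidableEq ι] {J : Type} [Fintype J] [DecidableEq J]
    (W : (ι → Bool) → ℝ) (hW0 : 𝔼 y, W y = 0) (hW2 : 𝔼 y, W y ^ 2 = 1)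
    (x : J → ℝ) (j0 : J) (hx0 : x j0 = 0) (τ : ℝ → J) {K a b η : ℝ} (hK : 1 ≤ K) (ha : 0 < a)
    (hab : a ≤ b) (ha1 : a ≤ 1)
    (hτ1 : ∀ w, |w| < K → x (τ w) ≤ w ∧ w ≤ x (τ w) + b) (hτ2 : ∀ w, K ≤ |w| → τ w = j0)
    (l h : J → ℝ) (hl0 : ∀ j, 0 < l j)
    (hl : ∀ j, l j ≤ 𝔼 y, ind (W y ∈ Set.Ioo (x j + 1) (x j + 1 + a)))
    (hh : ∀ j, 𝔼 y, ind (W y ∈ Set.Icc (x j) (x j + b)) ≤ h j)
    (hη : 1 - 𝔼 y, min (W y ^ 2) (K ^ 2 / 4) ≤ η)
    (hnum : (b ^ 2 + Fintype.card J * a ^ 2) * ∑ j, h j / l j +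
      (4 + Fintype.card J * a ^ 2) * (4 / 3) * η / l j0 ≤ 1 / 2) :
    ∃ s0 : ℝ, 𝔼 y : Option J × ι → Bool,
      ind (CombA τ (fun j w => w ∈ Set.Ioo (x j + 1) (x j + 1 + a)) fun i => W (blk y i)) *
        ((∑ i, W (blk y i) - s0) ^ 2 - 1) ≤ -((∏ j, l j) / 2) := by
  set p : J → ℝ := fun j => 𝔼 y, ind (W y ∈ Set.Ioo (x j + 1) (x j + 1 + a)) with hp
  have hp0 : ∀ j, 0 < p j := fun j => (hl0 j).trans_le (hl j)
  set μ : J → ℝ := fun j => (𝔼 y, ind (W y ∈ Set.Ioo (x j + 1) (x j + 1 + a)) * W y) / p j with hμ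
  have hμp : ∀ j, μ j * p j = 𝔼 y, ind (W y ∈ Set.Ioo (x j + 1) (x j + 1 + a)) * W y :=
    fun j => div_mul_cancel₀ _ (hp0 j).ne'
  have hμ1 : ∀ j, x j + 1 ≤ μ j := fun j => by
    refine le_of_mul_le_mul_right ?_ (hp0 j)
    rw [hμp, hp, Finset.mul_expect]
    refine Finset.expect_le_expect fun y _ => ?_
    by_cases hy : W y ∈ Set.Ioo (x j + 1) (x j + 1 + a)
    · rw [ind_true hy]; linarith [hy.1]
    · rw [ind_false hy]; simp
  have hμ2 : ∀ j, μ j ≤ x j + 1 + a := fun j => by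
    refine le_of_mul_le_mul_right ?_ (hp0 j)
    rw [hμp, hp, Finset.mul_expect]
    refine Finset.expect_le_expect fun y _ => ?_
    by_cases hy : W y ∈ Set.Ioo (x j + 1) (x j + 1 + a)
    · rw [ind_true hy]; linarith [hy.2]
    · rw [ind_false hy]; simp
  refine ⟨∑ j, μ j - 1, le_trans (comb_bound W hW0 hW2 τ _ p μ a (fun _ => rfl) hp0 hμp
    (fun j w hw => sq_le_sq' (by linarith [hw.1, hμ2 j]) (by linarith [hw.2, hμ1 j]))) ?_⟩
  set k : ℝ := (Fintype.card J : ℝ) with hk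
  have hk0 : 0 ≤ k := Nat.cast_nonneg _
  have hη0 : 𝔼 y, (W y ^ 2 - min (W y ^ 2) (K ^ 2 / 4)) ≤ η := by
    rw [Finset.expect_sub_distrib, hW2]; exact hη
  have hη1 : 0 ≤ η :=
    le_trans (Finset.expect_nonneg fun y _ => sub_nonneg.2 (min_le_left _ _)) hη0
  have hh0 : ∀ j, 0 ≤ h j := fun j =>
    le_trans (Finset.expect_nonneg fun y _ => ind_nonneg _) (hh j)
  have key : ∀ j, 𝔼 y, ind (τ (W y) = j) * ((W y - μ j + 1) ^ 2 + k * a ^ 2) ≤
      (b ^ 2 + k * a ^ 2) * h j + if j = j0 then (4 + k * a ^ 2) * (4 / 3) * η else 0 := by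
    intro j
    have pt : ∀ w : ℝ, ind (τ w = j) * ((w - μ j + 1) ^ 2 + k * a ^ 2) ≤
        (b ^ 2 + k * a ^ 2) * ind (w ∈ Set.Icc (x j) (x j + b)) +
          (if j = j0 then (4 + k * a ^ 2) * (4 / 3) else 0) * (w ^ 2 - min (w ^ 2) (K ^ 2 / 4)) := by
      intro w
      have t1 : 0 ≤ (b ^ 2 + k * a ^ 2) * ind (w ∈ Set.Icc (x j) (x j + b)) :=
        mul_nonneg (by positivity) (ind_nonneg _)
      have t2 : 0 ≤ (if j = j0 then (4 + k * a ^ 2) * (4 / 3) else 0) *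
          (w ^ 2 - min (w ^ 2) (K ^ 2 / 4)) :=
        mul_nonneg (by split_ifs <;> positivity) (sub_nonneg.2 (min_le_left _ _))
      by_cases hj : τ w = j
      · rw [ind_true hj, one_mul]
        by_cases hw : |w| < K
        · have := hτ1 w hw
          rw [hj] at this
          rw [ind_true (show w ∈ Set.Icc (x j) (x j + b) from this)] at t1 ⊢
          have : (w - μ j + 1) ^ 2 ≤ b ^ 2 :=
            sq_le_sq' (by linarith [hμ2 j, this.1]) (by linarith [hμ1 j, this.2])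
          linarith
        · push Not at hw
          have hj0 : j = j0 := hj ▸ hτ2 w hw
          subst hj0
          simp only [if_true]
          have hw2 : K ^ 2 ≤ w ^ 2 := by
            rw [← sq_abs w]; exact pow_le_pow_left₀ (by linarith) hw 2
          have hw3 : 1 ≤ w ^ 2 := by nlinarith
          have hm : w ^ 2 ≤ 4 / 3 * (w ^ 2 - min (w ^ 2) (K ^ 2 / 4)) := by
            have := min_le_right (w ^ 2) (K ^ 2 / 4)
            linarith
          have h5 : (w - μ j + 1) ^ 2 ≤ 4 * w ^ 2 := by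
            have e1 := hμ1 j
            have e2 := hμ2 j
            rw [hx0] at e1 e2
            have e3 : (μ j - 1) ^ 2 ≤ 1 := by nlinarith
            nlinarith [sq_nonneg (w + (μ j - 1))]
          have h6 : k * a ^ 2 ≤ k * a ^ 2 * w ^ 2 := by
            have : 0 ≤ k * a ^ 2 := by positivity
            nlinarith
          have h7 : (4 + k * a ^ 2) * w ^ 2 ≤
              (4 + k * a ^ 2) * (4 / 3 * (w ^ 2 - min (w ^ 2) (K ^ 2 / 4))) :=
            mul_le_mul_of_nonneg_left hm (by positivity)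
          nlinarith
      · rw [ind_false hj, zero_mul]; linarith
    refine le_trans (Finset.expect_le_expect fun y _ => pt (W y)) ?_
    rw [Finset.expect_add_distrib, ← Finset.mul_expect, ← Finset.mul_expect]
    refine add_le_add (mul_le_mul_of_nonneg_left (hh j) (by positivity)) ?_
    split_ifs
    · exact mul_le_mul_of_nonneg_left hη0 (by positivity)
    · simp
  have hsum : ∑ j, (𝔼 y, ind (τ (W y) = j) * ((W y - μ j + 1) ^ 2 + k * a ^ 2)) / p j ≤ 1 / 2 := by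
    refine le_trans ?_ hnum
    calc _ ≤ ∑ j, ((b ^ 2 + k * a ^ 2) * (h j / l j) +
          if j = j0 then (4 + k * a ^ 2) * (4 / 3) * η / l j else 0) := by
          refine Finset.sum_le_sum fun j _ => ?_
          have e : (b ^ 2 + k * a ^ 2) * (h j / l j) +
              (if j = j0 then (4 + k * a ^ 2) * (4 / 3) * η / l j else 0) =
              ((b ^ 2 + k * a ^ 2) * h j +
                if j = j0 then (4 + k * a ^ 2) * (4 / 3) * η else 0) / l j := by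
            split_ifs <;> ring
          rw [e]
          refine div_le_div₀ ?_ (key j) (hl0 j) (hl j)
          have := hh0 j
          split_ifs <;> positivity
      _ = _ := by
          rw [Finset.sum_add_distrib, ← Finset.mul_sum, Finset.sum_ite_eq']; simp
  have hP : ∏ j, l j ≤ ∏ j, p j := Finset.prod_le_prod (fun j _ => (hl0 j).le) fun j _ => hl j
  have hP0 : 0 < ∏ j, l j := Finset.prod_pos fun j _ => hl0 j
  nlinarith

lemma grid (K M : ℕ) (hK : 1 ≤ K) (hM : 1 ≤ M) :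
    ∃ (x : Fin (2 * K * M ^ 2) → ℝ) (j0 : Fin (2 * K * M ^ 2)) (τ : ℝ → Fin (2 * K * M ^ 2)),
      x j0 = 0 ∧ (∀ j, |x j| ≤ K) ∧
      (∀ w : ℝ, |w| < K → x (τ w) ≤ w ∧ w ≤ x (τ w) + 1 / (M : ℝ) ^ 2) ∧
      ∀ w, (K : ℝ) ≤ |w| → τ w = j0 := by
  classical
  have hM2 : 0 < M ^ 2 := by positivity
  have hM2' : (0 : ℝ) < (M : ℝ) ^ 2 := by exact_mod_cast hM2
  have hlt : K * M ^ 2 < 2 * K * M ^ 2 := by nlinarith
  have hτ : ∀ w : ℝ, |w| < K → ⌊(w + K) * (M : ℝ) ^ 2⌋₊ < 2 * K * M ^ 2 := fun w hw => by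
    have := abs_lt.1 hw
    rw [Nat.floor_lt (by nlinarith)]
    push_cast; nlinarith
  refine ⟨fun j => (j : ℝ) / (M : ℝ) ^ 2 - K, ⟨K * M ^ 2, hlt⟩,
    fun w => if h : |w| < K then ⟨_, hτ w h⟩ else ⟨K * M ^ 2, hlt⟩, ?_, fun j => ?_,
    fun w hw => ?_, fun w hw => ?_⟩
  · simp only; push_cast; field_simp; ring
  · have h1 : (0 : ℝ) ≤ (j : ℝ) / (M : ℝ) ^ 2 := by positivity
    have h2 : ((j : ℕ) : ℝ) / (M : ℝ) ^ 2 ≤ 2 * K := by
      rw [div_le_iff₀ hM2']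
      exact_mod_cast j.2.le
    exact abs_le.2 ⟨by linarith, by linarith⟩
  · simp only [hw, dif_pos]
    have := abs_lt.1 hw
    have h0 : 0 ≤ (w + K) * (M : ℝ) ^ 2 := by nlinarith
    have h1 := Nat.floor_le h0
    have h2 := Nat.lt_floor_add_one ((w + K) * (M : ℝ) ^ 2)
    constructor
    · rw [sub_le_iff_le_add, div_le_iff₀ hM2']; exact h1
    · have : w + K ≤ ((⌊(w + K) * (M : ℝ) ^ 2⌋₊ : ℝ) + 1) / (M : ℝ) ^ 2 := by
        rw [le_div_iff₀ hM2']; exact h2.le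
      rw [add_div] at this
      linarith
  · simp only [not_lt.2 hw, dif_neg, not_false_eq_true]

lemma numerics (C c0 : ℝ) (hC : 0 ≤ C) (hc0 : 0 < c0) : ∃ K M : ℕ, 1 ≤ K ∧ 1 ≤ M ∧
    ((1 / (M : ℝ) ^ 2) ^ 2 + ((2 * K * M ^ 2 : ℕ) : ℝ) * (1 / (M : ℝ) ^ 3) ^ 2) *
        (((2 * K * M ^ 2 : ℕ) : ℝ) * (4 * M * Real.exp (4 * K + 4))) +
      (4 + ((2 * K * M ^ 2 : ℕ) : ℝ) * (1 / (M : ℝ) ^ 3) ^ 2) * (4 / 3) *
        (Real.exp (-(25 * K)) * (C + 1)) /
          (Real.exp (-(2 * K + 2)) * c0 * (1 / (M : ℝ) ^ 3) / 2) ≤ 1 / 2 := by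
  obtain ⟨K, hK⟩ := exists_nat_ge
    (1 + 2 * (24 * Real.exp 4 + 128 * Real.exp 2 * (C + 1) / c0))
  have hpos : 0 ≤ 24 * Real.exp 4 + 128 * Real.exp 2 * (C + 1) / c0 := by positivity
  have hK1 : (1 : ℝ) ≤ K := by linarith
  set q := Real.exp K with hq
  have hKq : (K : ℝ) ≤ q := by linarith [Real.add_one_le_exp (K : ℝ)]
  have hq1 : 1 ≤ q := hK1.trans hKq
  have hq0 : 0 < q := by linarith
  have hq7 : 1 ≤ q ^ 7 := one_le_pow₀ hq1
  set M := ⌈q ^ 7⌉₊ with hM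
  have hM1 : q ^ 7 ≤ M := Nat.le_ceil _
  have hM2 : (M : ℝ) ≤ 2 * q ^ 7 := by
    have := Nat.ceil_lt_add_one (show 0 ≤ q ^ 7 by positivity)
    linarith
  have hM3 : (1 : ℝ) ≤ M := hq7.trans hM1
  have hM0 : (0 : ℝ) < M := by linarith
  refine ⟨K, M, by exact_mod_cast hK1, by exact_mod_cast hM3, ?_⟩
  have e1 : Real.exp (4 * K + 4) = q ^ 4 * Real.exp 4 := by
    rw [Real.exp_add, hq, ← Real.exp_nat_mul]; norm_num
  have e2 : Real.exp (-(25 * K)) = (q ^ 25)⁻¹ := by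
    rw [Real.exp_neg, hq, ← Real.exp_nat_mul]; norm_num
  have e3 : Real.exp (-(2 * K + 2)) = (q ^ 2 * Real.exp 2)⁻¹ := by
    rw [Real.exp_neg, Real.exp_add, hq, ← Real.exp_nat_mul]; norm_num
  rw [e1, e2, e3]
  push_cast
  have t1 : ((1 / (M : ℝ) ^ 2) ^ 2 + 2 * K * M ^ 2 * (1 / (M : ℝ) ^ 3) ^ 2) *
      (2 * K * M ^ 2 * (4 * M * (q ^ 4 * Real.exp 4))) ≤ 24 * Real.exp 4 / q := by
    have : ((1 / (M : ℝ) ^ 2) ^ 2 + 2 * K * M ^ 2 * (1 / (M : ℝ) ^ 3) ^ 2) *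
      (2 * K * M ^ 2 * (4 * M * (q ^ 4 * Real.exp 4))) =
        8 * K * (1 + 2 * K) * q ^ 4 * Real.exp 4 / M := by field_simp; ring
    rw [this, div_le_div_iff₀ hM0 hq0]
    have h1 : 8 * (K : ℝ) * (1 + 2 * K) ≤ 24 * q ^ 2 := by nlinarith
    calc 8 * K * (1 + 2 * K) * q ^ 4 * Real.exp 4 * q
        ≤ 24 * q ^ 2 * q ^ 4 * Real.exp 4 * q := by gcongr
      _ = 24 * Real.exp 4 * q ^ 7 := by ring
      _ ≤ _ := by gcongr
  have t2 : (4 + 2 * K * M ^ 2 * (1 / (M : ℝ) ^ 3) ^ 2) * (4 / 3) * ((q ^ 25)⁻¹ * (C + 1)) /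
      ((q ^ 2 * Real.exp 2)⁻¹ * c0 * (1 / (M : ℝ) ^ 3) / 2) ≤
      128 * Real.exp 2 * (C + 1) / c0 / q := by
    have : (4 + 2 * K * M ^ 2 * (1 / (M : ℝ) ^ 3) ^ 2) * (4 / 3) * ((q ^ 25)⁻¹ * (C + 1)) /
      ((q ^ 2 * Real.exp 2)⁻¹ * c0 * (1 / (M : ℝ) ^ 3) / 2) =
        ((4 + 2 * K / M ^ 4) * (8 / 3) * M ^ 3 / q ^ 22) * (Real.exp 2 * (C + 1) / c0 / q) := by
      field_simp; ring
    rw [this]
    have h1 : 2 * (K : ℝ) / M ^ 4 ≤ 2 * q := by
      rw [div_le_iff₀ (by positivity)]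
      have : (1 : ℝ) ≤ M ^ 4 := one_le_pow₀ hM3
      nlinarith
    have h2 : (4 + 2 * K / M ^ 4) * (8 / 3) * (M : ℝ) ^ 3 / q ^ 22 ≤ 128 := by
      rw [div_le_iff₀ (by positivity)]
      calc (4 + 2 * K / M ^ 4) * (8 / 3) * (M : ℝ) ^ 3 ≤ (6 * q) * (8 / 3) * (2 * q ^ 7) ^ 3 := by
            gcongr; linarith
        _ = _ := by ring
    calc _ ≤ 128 * (Real.exp 2 * (C + 1) / c0 / q) := by gcongr
      _ = _ := by ring
  have t3 : 24 * Real.exp 4 / q + 128 * Real.exp 2 * (C + 1) / c0 / q ≤ 1 / 2 := by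
    rw [← add_div, div_le_iff₀ hq0]; linarith
  linarith

lemma expect_nsum {ι : Type} [Fintype ι] [DecidableEq ι] (W : (ι → Bool) → ℝ)
    (h0 : 𝔼 y, W y = 0) (N : ℕ) : 𝔼 x, nsum W N x = 0 := by
  unfold nsum
  rw [← Finset.mul_expect, Finset.expect_sum_comm, Finset.sum_eq_zero, mul_zero]
  intro j _
  have := expect_blk_prod (ι := ι) (fun (l : Fin N) y => if l = j then W y else 1)
  simp only [Finset.prod_ite_eq', Finset.mem_univ, if_true] at this
  rw [this]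
  exact Finset.prod_eq_zero (Finset.mem_univ j) (by simpa using h0)

lemma expect_nsum_sq {ι : Type} [Fintype ι] [DecidableEq ι] (W : (ι → Bool) → ℝ)
    (h0 : 𝔼 y, W y = 0) (h2 : 𝔼 y, W y ^ 2 = 1) {N : ℕ} (hN : 1 ≤ N) :
    𝔼 x, nsum W N x ^ 2 = 1 := by
  unfold nsum
  have := expect_prod_sq (ι := ι) (fun (_ : Fin N) _ => 1) (fun _ y => W y) ⟨0, hN⟩
    (fun l _ => by simpa using h0)
  simp only [Finset.prod_const_one, one_mul, Fintype.expect_const, mul_one, h2,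
    Finset.sum_const, Finset.card_univ, Fintype.card_fin, nsmul_eq_mul] at this
  simp only [mul_pow, ← Finset.mul_expect, this, inv_pow]
  rw [Real.sq_sqrt (Nat.cast_nonneg _), inv_mul_cancel₀]
  exact_mod_cast (by omega : N ≠ 0)

theorem gauss_design : ∃ (k : ℕ) (τ : ℝ → Fin k) (I : Fin k → ℝ → Prop) (g : ℝ), 0 < k ∧ 0 < g ∧
    ∀ (ι : Type) [Fintype ι] [DecidableEq ι] (W : (ι → Bool) → ℝ),
      𝔼 y, W y = 0 → 𝔼 y, W y ^ 2 = 1 → ∀ᶠ N in atTop, ∃ s0 : ℝ,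
        𝔼 y : Option (Fin k) × (Fin N × ι) → Bool,
          ind (CombA τ I fun i => nsum W N (blk y i)) *
            ((∑ i, nsum W N (blk y i) - s0) ^ 2 - 1) ≤ -g := by
  obtain ⟨C, hC, htail⟩ := gauss_tail
  have hφ : ∀ t, 0 < gaussianPDFReal 0 1 t := fun t => gaussianPDFReal_pos _ _ _ one_ne_zero
  obtain ⟨K, M, hK, hM, hnum⟩ := numerics C (gaussianPDFReal 0 1 0) hC (hφ 0)
  obtain ⟨x, j0, τ, hx0, hxK, hτ1, hτ2⟩ := grid K M hK hM
  have hM' : (1 : ℝ) ≤ M := by exact_mod_cast hM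
  have hK' : (1 : ℝ) ≤ K := by exact_mod_cast hK
  set a : ℝ := 1 / (M : ℝ) ^ 3 with ha
  set b : ℝ := 1 / (M : ℝ) ^ 2 with hb
  have ha0 : 0 < a := by positivity
  have hb0 : 0 < b := by positivity
  have hab : a ≤ b := one_div_le_one_div_of_le (by positivity) (pow_le_pow_right₀ hM' (by norm_num))
  have hb1 : b ≤ 1 := by rw [hb, div_le_one (by positivity)]; exact one_le_pow₀ hM'
  set l : Fin (2 * K * M ^ 2) → ℝ := fun j =>
    Real.exp (-(2 * K + 2)) * gaussianPDFReal 0 1 (x j) * a / 2 with hl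
  set h : Fin (2 * K * M ^ 2) → ℝ := fun j =>
    2 * (Real.exp (2 * K + 2) * gaussianPDFReal 0 1 (x j) * b) with hh
  have hl0 : ∀ j, 0 < l j := fun j => by have := hφ (x j); positivity
  refine ⟨2 * K * M ^ 2, τ, fun j w => w ∈ Set.Ioo (x j + 1) (x j + 1 + a), (∏ j, l j) / 2,
    by positivity, half_pos (Finset.prod_pos fun j _ => hl0 j), fun ι _ _ W h0 h2 => ?_⟩
  have E1 : ∀ᶠ N in atTop, ∀ j, l j ≤ 𝔼 y, ind (nsum W N y ∈ Set.Ioo (x j + 1) (x j + 1 + a)) := by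
    refine eventually_all.2 fun j => ?_
    refine (clt_set W h0 h2 measurableSet_Ioo ?_).eventually (le_mem_nhds ?_)
    · rw [frontier_Ioo (by linarith)]; simp
    · have := gauss_Ioo_ge (u := x j + 1) (v := x j + 1 + a)
        (m := Real.exp (-(2 * K + 2)) * gaussianPDFReal 0 1 (x j)) (by linarith)
        (fun t ht => (pdf_bounds (hxK j) (abs_le.2 ⟨by linarith [ht.1], by linarith [ht.2]⟩)).1)
      have h3 := hl0 j
      simp only [hl, add_sub_cancel_left] at h3 this ⊢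
      linarith
  have E2 : ∀ᶠ N in atTop, ∀ j, 𝔼 y, ind (nsum W N y ∈ Set.Icc (x j) (x j + b)) ≤ h j := by
    refine eventually_all.2 fun j => ?_
    refine (clt_set W h0 h2 measurableSet_Icc ?_).eventually (ge_mem_nhds ?_)
    · rw [frontier_Icc (by linarith)]; simp
    · have := gauss_Icc_le (u := x j) (v := x j + b)
        (m := Real.exp (2 * K + 2) * gaussianPDFReal 0 1 (x j)) (by linarith)
        (fun t ht => (pdf_bounds (hxK j) (abs_le.2 ⟨by linarith [ht.1], by linarith [ht.2]⟩)).2)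
      have h3 : 0 < Real.exp (2 * K + 2) * gaussianPDFReal 0 1 (x j) * b := by
        have := hφ (x j); positivity
      simp only [hh, add_sub_cancel_left] at this ⊢
      linarith
  have E3 : ∀ᶠ N in atTop, 1 - Real.exp (-(25 * K)) * (C + 1) ≤
      𝔼 y, min (nsum W N y ^ 2) ((K : ℝ) ^ 2 / 4) := by
    refine (clt_bdd W h0 h2 (fun t => min (t ^ 2) ((K : ℝ) ^ 2 / 4)) (by fun_prop)
      ((K : ℝ) ^ 2 / 4) fun t => ?_).eventually (le_mem_nhds ?_)
    · rw [Real.norm_of_nonneg (by positivity)]; exact min_le_right _ _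
    · have := htail K (by linarith)
      have h3 := Real.exp_pos (-(25 * (K : ℝ)))
      linarith
  filter_upwards [E1, E2, E3, eventually_ge_atTop 1] with N e1 e2 e3 hN
  refine cost_bound (nsum W N) (expect_nsum W h0 N) (expect_nsum_sq W h0 h2 hN) x j0 hx0 τ hK' ha0
    hab (hab.trans hb1) hτ1 hτ2 l h hl0 e1 e2 (η := Real.exp (-(25 * K)) * (C + 1)) (by linarith) ?_
  have hr : ∀ j, h j / l j = 4 * M * Real.exp (4 * K + 4) := fun j => by
    have := hφ (x j)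
    have e : Real.exp (4 * K + 4) = Real.exp (2 * K + 2) * Real.exp (2 * K + 2) := by
      rw [← Real.exp_add]; ring_nf
    simp only [hh, hl, ha, hb, e, Real.exp_neg]
    field_simp; ring
  simp only [hr, Finset.sum_const, Finset.card_univ, Fintype.card_fin, nsmul_eq_mul]
  simp only [hl, hx0]
  exact hnum

theorem gauss_abs : ∃ c : ℝ, 0 < c ∧
    ∀ (ι : Type) [Fintype ι] [DecidableEq ι] (W : (ι → Bool) → ℝ),
      𝔼 y, W y = 0 → 𝔼 y, W y ^ 2 = 1 → ∀ᶠ N in atTop, c ≤ 𝔼 y, |nsum W N y| := by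
  have hφ : ∀ t, 0 < gaussianPDFReal 0 1 t := fun t => gaussianPDFReal_pos _ _ _ one_ne_zero
  refine ⟨Real.exp (-(2 * 0 + 2)) * gaussianPDFReal 0 1 0 / 2, by have := hφ 0; positivity,
    fun ι _ _ W h0 h2 => ?_⟩
  have E : ∀ᶠ N in atTop, Real.exp (-(2 * 0 + 2)) * gaussianPDFReal 0 1 0 / 2 ≤
      𝔼 y, ind (nsum W N y ∈ Set.Ioo (1 : ℝ) 2) := by
    refine (clt_set W h0 h2 measurableSet_Ioo ?_).eventually (le_mem_nhds ?_)
    · rw [frontier_Ioo (by norm_num)]; simp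
    · have := gauss_Ioo_ge (u := 1) (v := 2)
        (m := Real.exp (-(2 * 0 + 2)) * gaussianPDFReal 0 1 0) (by norm_num)
        (fun t ht => (pdf_bounds (K := 0) (by simp)
          (abs_le.2 ⟨by linarith [ht.1], by linarith [ht.2]⟩)).1)
      have h3 : 0 < Real.exp (-(2 * 0 + 2)) * gaussianPDFReal 0 1 0 := by
        have := hφ 0; positivity
      rw [show (2 : ℝ) - 1 = 1 by norm_num, mul_one] at this
      exact (half_lt_self h3).trans_le this
  filter_upwards [E] with N hN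
  refine hN.trans (Finset.expect_le_expect fun y _ => ?_)
  by_cases hy : nsum W N y ∈ Set.Ioo (1 : ℝ) 2
  · rw [ind_true hy]; exact hy.1.le.trans (le_abs_self _)
  · rw [ind_false hy]; exact abs_nonneg _

end

end Crest.Agent.R63
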