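import Crest.Agent.R63.Design

/-! Amplification and the final Boolean function. -/

set_option autoImplicit false

namespace Crest.Agent.R63

open Finset Filter
open scoped BigOperators Topology

noncomputable section

variable {ι : Type} [Fintype ι] [DecidableEq ι]

lemma FObj.nsum {D : ℕ} {Z : (ι → Bool) → ℝ} (hZ : FObj D Z) (N : ℕ) :
    FObj (N * D) (fun x : Fin N × ι → Bool => ∑ j, Z (blk x j)) :=
  (hZ.pi (Fin N)).coarsen (fun _ => by simp)

lemma nsum_div (Z : (ι → Bool) → ℝ) (σ : ℝ) (N : ℕ) (x : Fin N × ι → Bool) :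
    nsum (fun y => Z y / σ) N x = (∑ j, Z (blk x j)) / (√N * σ) := by
  unfold nsum
  rw [← Finset.sum_div, div_mul_eq_div_div_swap, div_eq_inv_mul (_ / σ)]

lemma normalise {D : ℕ} {Z : (ι → Bool) → ℝ} (hZ : FObj D Z) (hv : 0 < 𝔼 y, Z y ^ 2) :
    𝔼 y, Z y / √(𝔼 y, Z y ^ 2) = 0 ∧ 𝔼 y, (Z y / √(𝔼 y, Z y ^ 2)) ^ 2 = 1 := by
  constructor
  · rw [← Finset.expect_div]
    have := hZ.expect_z
    simp only [id] at this
    rw [this, zero_div]
  · simp only [div_pow]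
    rw [← Finset.expect_div, Real.sq_sqrt hv.le, div_self hv.ne']

lemma base : FObj 1 (fun x : Unit → Bool => SS x) := fun v => by
  refine ⟨fun T hT => ?_, ?_⟩
  · have := Finset.card_le_univ T
    simp only [Fintype.card_unique] at this hT
    omega
  · refine Finset.expect_eq_zero fun x _ => ?_
    by_cases h : SS x = v
    · simp [h]
    · simp [ind_false h]

theorem amplify : ∃ γ : ℝ, 0 < γ ∧ ∀ n : ℕ, ∃ (κ : Type) (_ : Fintype κ) (_ : DecidableEq κ)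
    (D : ℕ) (Z : (κ → Bool) → ℝ), 1 ≤ D ∧ FObj D Z ∧ (1 + γ) ^ n * D ≤ 𝔼 x, Z x ^ 2 := by
  obtain ⟨k, τ, I, g, hk, hg, hdes⟩ := gauss_design
  refine ⟨g / (2 * (k + 1)), by positivity, fun n => ?_⟩
  induction n with
  | zero =>
    refine ⟨Unit, inferInstance, inferInstance, 1, _, le_rfl, base, ?_⟩
    have : ∀ x : Unit → Bool, SS x ^ 2 = 1 := fun x => by
      unfold SS sg; simp
    simp [this]
  | succ n ih =>
    obtain ⟨κ, _, _, D, Z, hD, hZ, hv⟩ := ih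
    have hD0 : (0 : ℝ) < D := by exact_mod_cast hD
    have hv0 : 0 < 𝔼 x, Z x ^ 2 := lt_of_lt_of_le (by positivity) hv
    obtain ⟨h0, h2⟩ := normalise hZ hv0
    obtain ⟨N, ⟨s0, hs⟩, hN⟩ := ((hdes κ _ h0 h2).and (eventually_ge_atTop 1)).exists
    have hN0 : (0 : ℝ) < N := by exact_mod_cast hN
    set σ := √(𝔼 x, Z x ^ 2) with hσ
    have hσ0 : 0 < σ := Real.sqrt_pos.2 hv0
    have hσ2 : σ ^ 2 = 𝔼 x, Z x ^ 2 := Real.sq_sqrt hv0.le
    simp only [nsum_div] at hs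
    have hsN : 0 < √(N : ℝ) := Real.sqrt_pos.2 hN0
    have hvar : 𝔼 y : Fin N × κ → Bool, (∑ j, Z (blk y j)) ^ 2 = (√N * σ) ^ 2 := by
      have := expect_nsum_sq _ h0 h2 hN
      simp only [nsum_div, div_pow] at this
      rw [← Finset.expect_div, div_eq_one_iff_eq (by positivity)] at this
      exact this
    haveI : Nonempty (Fin k) := ⟨⟨0, hk⟩⟩
    obtain ⟨κ', _, _, B, Z', hB, hZ', hv'⟩ := comb_step (D := N * D) (by nlinarith) (hZ.nsum N)
      (σ := √N * σ) (by positivity) hvar τ I s0 g hg hs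
    refine ⟨κ', inferInstance, inferInstance, B, Z', hB, hZ', le_trans ?_ hv'⟩
    rw [Fintype.card_fin, pow_succ]
    have e : (√N * σ) ^ 2 / ((N * D : ℕ) : ℝ) = (𝔼 x, Z x ^ 2) / D := by
      rw [mul_pow, Real.sq_sqrt hN0.le, hσ2]; push_cast; field_simp
    rw [e]
    have : (1 + g / (2 * ((k : ℝ) + 1))) ^ n ≤ (𝔼 x, Z x ^ 2) / D := by
      rw [le_div_iff₀ hD0]; exact hv
    gcongr

theorem exists_bool (C : ℝ) (hC : 0 < C) : ∃ (κ : Type) (_ : Fintype κ) (_ : DecidableEq κ)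
    (f : (κ → Bool) → Bool) (d : ℕ), Deg d (fun x => sg (f x)) ∧
      C * √d < 𝔼 x, sg (f x) * SS x := by
  obtain ⟨γ, hγ, hamp⟩ := amplify
  obtain ⟨c, hc, habs⟩ := gauss_abs
  obtain ⟨n, hn⟩ := pow_unbounded_of_one_lt ((C / c) ^ 2) (show 1 < 1 + γ by linarith)
  obtain ⟨κ, _, _, D, Z, hD, hZ, hv⟩ := hamp n
  have hD0 : (0 : ℝ) < D := by exact_mod_cast hD
  have hv0 : 0 < 𝔼 x, Z x ^ 2 := lt_of_lt_of_le (by positivity) hv
  obtain ⟨h0, h2⟩ := normalise hZ hv0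
  obtain ⟨N, hs, hN⟩ := ((habs κ _ h0 h2).and (eventually_ge_atTop 1)).exists
  have hN0 : (0 : ℝ) < N := by exact_mod_cast hN
  set σ := √(𝔼 x, Z x ^ 2) with hσ
  have hσ0 : 0 < σ := Real.sqrt_pos.2 hv0
  have hsN : 0 < √(N : ℝ) := Real.sqrt_pos.2 hN0
  have hF := hZ.nsum N
  refine ⟨Fin N × κ, inferInstance, inferInstance, fun x => decide (0 < ∑ j, Z (blk x j)), N * D,
    hF.deg_comp (fun w => sg (decide (0 < w))) fun _ _ => le_rfl, ?_⟩
  rw [hF.expect_comp' (fun w => sg (decide (0 < w)))]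
  have e : ∀ w : ℝ, sg (decide (0 < w)) * id w = |w| := fun w => by
    by_cases h : 0 < w
    · simp [sg, h, abs_of_pos h]
    · simp [sg, h, abs_of_nonpos (not_lt.1 h)]
  simp only [e]
  simp only [nsum_div, abs_div, abs_of_pos (mul_pos hsN hσ0)] at hs
  rw [← Finset.expect_div, le_div_iff₀ (by positivity)] at hs
  refine lt_of_lt_of_le ?_ hs
  have h3 : C / c * √D < σ := by
    rw [hσ]
    refine Real.lt_sqrt_of_sq_lt (lt_of_lt_of_le ?_ hv)
    rw [mul_pow, Real.sq_sqrt hD0.le]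
    gcongr
  push_cast
  rw [Real.sqrt_mul hN0.le]
  calc C * (√N * √D) = c * (√N * (C / c * √D)) := by field_simp
    _ < _ := by gcongr

end

end Crest.Agent.R63
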